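import Vale.Agent.P154.GD.Scalar
import Vale.Agent.P154.GD.Ck1
import Vale.Agent.P154.GD.Ck2
import Vale.Agent.P154.GD.Ck3

/-!
# Kernel checks of the scalar inequality
-/

namespace Vale.Agent.P154.GD

set_option maxRecDepth 100000

/-- vertex -/
def vx0 : Vx := ⟨20, ve0_0, ve0_1⟩

/-- vertex -/
def vx1 : Vx := ⟨26, ve1_0, ve1_1⟩

/-- vertex -/
def vx2 : Vx := ⟨34, ve2_0, ve2_1⟩

/-- vertex -/
def vx3 : Vx := ⟨44, ve3_0, ve3_1⟩

/-- vertex -/
def vx4 : Vx := ⟨57, ve4_0, ve4_1⟩

/-- vertex -/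
def vx5 : Vx := ⟨74, ve5_0, ve5_1⟩

/-- vertex -/
def vx6 : Vx := ⟨96, ve6_0, ve6_1⟩

/-- vertex -/
def vx7 : Vx := ⟨125, ve7_0, ve7_1⟩

/-- vertex -/
def vx8 : Vx := ⟨163, ve8_0, ve8_1⟩

/-- vertex -/
def vx9 : Vx := ⟨212, ve9_0, ve9_1⟩

/-- vertex -/
def vx10 : Vx := ⟨275, ve10_0, ve10_1⟩

/-- vertex -/
def vx11 : Vx := ⟨360, ve11_0, ve11_1⟩

/-- vertex -/
def vx12 : Vx := ⟨470, ve12_0, ve12_1⟩

/-- vertex -/
def vx13 : Vx := ⟨600, ve13_0, ve13_1⟩

/-- vertex -/
def vx14 : Vx := ⟨790, ve14_0, ve14_1⟩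

/-- vertex -/
def vx15 : Vx := ⟨1020, ve15_0, ve15_1⟩

/-- vertex -/
def vx16 : Vx := ⟨1330, ve16_0, ve16_1⟩

/-- vertex -/
def vx17 : Vx := ⟨1700, ve17_0, ve17_1⟩

/-- vertex -/
def vx18 : Vx := ⟨2020, ve18_0, ve18_1⟩

theorem iv0 : chk2 6 27345954297271680 vx0 vx1 = true := by decide +kernel

theorem iv1 : chk2 6 27345954297271680 vx1 vx2 = true := by decide +kernel

theorem iv2 : chk2 6 27345954297271680 vx2 vx3 = true := by decide +kernel

theorem iv3 : chk2 6 27345954297271680 vx3 vx4 = true := by decide +kernel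

theorem iv4 : chk2 6 27345954297271680 vx4 vx5 = true := by decide +kernel

theorem iv5 : chk2 6 27345954297271680 vx5 vx6 = true := by decide +kernel

theorem iv6 : chk2 6 27345954297271680 vx6 vx7 = true := by decide +kernel

theorem iv7 : chk2 6 27345954297271680 vx7 vx8 = true := by decide +kernel

theorem iv8 : chk2 6 27345954297271680 vx8 vx9 = true := by decide +kernel

theorem iv9 : chk2 6 27345954297271680 vx9 vx10 = true := by decide +kernel

theorem iv10 : chk2 6 27345954297271680 vx10 vx11 = true := by decide +kernel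

theorem iv11 : chk2 6 27345954297271680 vx11 vx12 = true := by decide +kernel

theorem iv12 : chk2 6 27345954297271680 vx12 vx13 = true := by decide +kernel

theorem iv13 : chk2 8 5909187264097437331200 vx13 vx14 = true := by decide +kernel

theorem iv14 : chk2 8 5909187264097437331200 vx14 vx15 = true := by decide +kernel

theorem iv15 : chk2 10 1872810537984929008251878400 vx15 vx16 = true := by decide +kernel

theorem iv16 : chk2 10 1872810537984929008251878400 vx16 vx17 = true := by decide +kernel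

theorem iv17 : chk2 10 1872810537984929008251878400 vx17 vx18 = true := by decide +kernel

theorem cst6 : (27345954297271680 : ℤ) = ((6 + 2).factorial : ℤ) * 49 ^ (6 + 1) := by
  simp [Nat.factorial]

theorem cst8 : (5909187264097437331200 : ℤ) = ((8 + 2).factorial : ℤ) * 49 ^ (8 + 1) := by
  simp [Nat.factorial]

theorem cst10 : (1872810537984929008251878400 : ℤ) = ((10 + 2).factorial : ℤ) * 49 ^ (10 + 1) := by
  simp [Nat.factorial]

/-- what is known for a parameter -/
def Cov (x : ℝ) : Prop :=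
  ∃ (K : ℕ) (cst : ℤ) (u v : Vx), Even K ∧ cst = ((K + 2).factorial : ℤ) * 49 ^ (K + 1) ∧
    chk2 K cst u v = true ∧ okE u.e0 = true ∧ okE u.e1 = true ∧ okE v.e0 = true ∧
    okE v.e1 = true ∧ (u.s : ℝ) ≤ x ∧ x < v.s

theorem cover {x : ℝ} (h0 : 20 ≤ x) (h1 : x < 2020) : Cov x := by
  by_cases h : x < 26
  · exact ⟨6, _, vx0, vx1, by decide, cst6, iv0, ok_ve0_0, ok_ve0_1, ok_ve1_0, ok_ve1_1,
      by simpa [vx0] using h0, by simpa [vx1] using h⟩
  push Not at h
  clear h0
  rename' h => h0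
  by_cases h : x < 34
  · exact ⟨6, _, vx1, vx2, by decide, cst6, iv1, ok_ve1_0, ok_ve1_1, ok_ve2_0, ok_ve2_1,
      by simpa [vx1] using h0, by simpa [vx2] using h⟩
  push Not at h
  clear h0
  rename' h => h0
  by_cases h : x < 44
  · exact ⟨6, _, vx2, vx3, by decide, cst6, iv2, ok_ve2_0, ok_ve2_1, ok_ve3_0, ok_ve3_1,
      by simpa [vx2] using h0, by simpa [vx3] using h⟩
  push Not at h
  clear h0
  rename' h => h0
  by_cases h : x < 57
  · exact ⟨6, _, vx3, vx4, by decide, cst6, iv3, ok_ve3_0, ok_ve3_1, ok_ve4_0, ok_ve4_1,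
      by simpa [vx3] using h0, by simpa [vx4] using h⟩
  push Not at h
  clear h0
  rename' h => h0
  by_cases h : x < 74
  · exact ⟨6, _, vx4, vx5, by decide, cst6, iv4, ok_ve4_0, ok_ve4_1, ok_ve5_0, ok_ve5_1,
      by simpa [vx4] using h0, by simpa [vx5] using h⟩
  push Not at h
  clear h0
  rename' h => h0
  by_cases h : x < 96
  · exact ⟨6, _, vx5, vx6, by decide, cst6, iv5, ok_ve5_0, ok_ve5_1, ok_ve6_0, ok_ve6_1,
      by simpa [vx5] using h0, by simpa [vx6] using h⟩
  push Not at h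
  clear h0
  rename' h => h0
  by_cases h : x < 125
  · exact ⟨6, _, vx6, vx7, by decide, cst6, iv6, ok_ve6_0, ok_ve6_1, ok_ve7_0, ok_ve7_1,
      by simpa [vx6] using h0, by simpa [vx7] using h⟩
  push Not at h
  clear h0
  rename' h => h0
  by_cases h : x < 163
  · exact ⟨6, _, vx7, vx8, by decide, cst6, iv7, ok_ve7_0, ok_ve7_1, ok_ve8_0, ok_ve8_1,
      by simpa [vx7] using h0, by simpa [vx8] using h⟩
  push Not at h
  clear h0
  rename' h => h0
  by_cases h : x < 212
  · exact ⟨6, _, vx8, vx9, by decide, cst6, iv8, ok_ve8_0, ok_ve8_1, ok_ve9_0, ok_ve9_1,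
      by simpa [vx8] using h0, by simpa [vx9] using h⟩
  push Not at h
  clear h0
  rename' h => h0
  by_cases h : x < 275
  · exact ⟨6, _, vx9, vx10, by decide, cst6, iv9, ok_ve9_0, ok_ve9_1, ok_ve10_0, ok_ve10_1,
      by simpa [vx9] using h0, by simpa [vx10] using h⟩
  push Not at h
  clear h0
  rename' h => h0
  by_cases h : x < 360
  · exact ⟨6, _, vx10, vx11, by decide, cst6, iv10, ok_ve10_0, ok_ve10_1, ok_ve11_0, ok_ve11_1,
      by simpa [vx10] using h0, by simpa [vx11] using h⟩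
  push Not at h
  clear h0
  rename' h => h0
  by_cases h : x < 470
  · exact ⟨6, _, vx11, vx12, by decide, cst6, iv11, ok_ve11_0, ok_ve11_1, ok_ve12_0, ok_ve12_1,
      by simpa [vx11] using h0, by simpa [vx12] using h⟩
  push Not at h
  clear h0
  rename' h => h0
  by_cases h : x < 600
  · exact ⟨6, _, vx12, vx13, by decide, cst6, iv12, ok_ve12_0, ok_ve12_1, ok_ve13_0, ok_ve13_1,
      by simpa [vx12] using h0, by simpa [vx13] using h⟩
  push Not at h
  clear h0
  rename' h => h0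
  by_cases h : x < 790
  · exact ⟨8, _, vx13, vx14, by decide, cst8, iv13, ok_ve13_0, ok_ve13_1, ok_ve14_0, ok_ve14_1,
      by simpa [vx13] using h0, by simpa [vx14] using h⟩
  push Not at h
  clear h0
  rename' h => h0
  by_cases h : x < 1020
  · exact ⟨8, _, vx14, vx15, by decide, cst8, iv14, ok_ve14_0, ok_ve14_1, ok_ve15_0, ok_ve15_1,
      by simpa [vx14] using h0, by simpa [vx15] using h⟩
  push Not at h
  clear h0
  rename' h => h0
  by_cases h : x < 1330
  · exact ⟨10, _, vx15, vx16, by decide, cst10, iv15, ok_ve15_0, ok_ve15_1, ok_ve16_0, ok_ve16_1,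
      by simpa [vx15] using h0, by simpa [vx16] using h⟩
  push Not at h
  clear h0
  rename' h => h0
  by_cases h : x < 1700
  · exact ⟨10, _, vx16, vx17, by decide, cst10, iv16, ok_ve16_0, ok_ve16_1, ok_ve17_0, ok_ve17_1,
      by simpa [vx16] using h0, by simpa [vx17] using h⟩
  push Not at h
  clear h0
  rename' h => h0
  exact ⟨10, _, vx17, vx18, by decide, cst10, iv17, ok_ve17_0, ok_ve17_1, ok_ve18_0, ok_ve18_1,
      by simpa [vx17] using h0, by simpa [vx18] using h1⟩

end Vale.Agent.P154.GD
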