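import Vale.Agent.P154.GD.Forms

/-!
# Data of the descent certificate (generated)
-/

namespace Vale.Agent.P154.GD

/-- one end of a vertex of the certificate -/
structure VE where
  a : ℤ
  b : ℤ × ℤ × ℤ
  n : Cf
  t1 : Tri
  t2 : Tri

/-- a vertex of the certificate -/
structure Vx where
  s : ℕ
  e0 : VE
  e1 : VE

/-- the weights of the functional, times `10 ^ 7` -/
def lamZ : ℤ × ℤ × ℤ := (-94000000, 378700000, -266650000)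

/-- check of the pointwise inequalities -/
def okE (v : VE) : Bool :=
  v.t1.chk (chkI v.n v.b) (25, 25, 16) (10, 9, 9) (1, 1, 1) &&
    v.t2.chk (chkII v.n (2 * v.a) lamZ) (1, 0, 0) (1, 1, 0) (1, 1, 1)

/-- data -/
def ve0_0 : VE :=
  ⟨-151, (-92602133, 371806513, -261359132), ⟨10017203, -4866, 1965221, -11514450, 29392162, -25417362⟩,
    (.node 0 1 22 1 (47, 47, 38) .leaf (.node 0 1 44 1 (91, 91, 82) .leaf (.node 1 3 28 1 (58, 55, 55) .leaf (.node 0 1 88 1 (179, 179, 170) .leaf (.node 1 1 56 3 (38, 37, 37) .leaf (.node 0 1 176 1 (355, 355, 346) .leaf .leaf)))))),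
    (.node 0 3 1 1 (4, 1, 1) .leaf (.node 1 3 2 1 (5, 5, 2) .leaf (.node 0 1 2 3 (2, 1, 1) .leaf (.node 1 1 4 3 (3, 3, 2) .leaf (.node 0 3 4 1 (10, 7, 7) .leaf (.node 1 3 8 1 (17, 17, 14) .leaf (.node 0 1 8 3 (6, 5, 5) .leaf (.node 0 3 16 1 (34, 31, 31) .leaf .leaf))))))))⟩

/-- data -/
def ve0_1 : VE :=
  ⟨-100, (-92884209, 373194539, -262424714), ⟨10012160, 25227, 1995808, -11753122, 29265276, -25047016⟩,
    (.node 0 1 22 1 (47, 47, 38) .leaf (.node 0 1 44 1 (91, 91, 82) .leaf (.node 1 3 28 1 (58, 55, 55) .leaf (.node 0 1 88 1 (179, 179, 170) .leaf (.node 1 1 56 3 (38, 37, 37) .leaf (.node 0 1 176 1 (355, 355, 346) .leaf .leaf)))))),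
    (.node 0 3 1 1 (4, 1, 1) .leaf (.node 1 3 2 1 (5, 5, 2) .leaf (.node 0 1 2 3 (2, 1, 1) .leaf (.node 1 1 4 3 (3, 3, 2) .leaf (.node 0 3 4 1 (10, 7, 7) .leaf (.node 1 3 8 1 (17, 17, 14) .leaf (.node 0 1 8 3 (6, 5, 5) .leaf (.node 0 3 16 1 (34, 31, 31) .leaf .leaf))))))))⟩

/-- data -/
def ve1_0 : VE :=
  ⟨-252, (-92183005, 369755980, -259787722), ⟨10027389, 6777, 1702498, -11228199, 31060784, -27381633⟩,
    (.node 0 1 22 1 (47, 47, 38) .leaf (.node 0 1 44 1 (91, 91, 82) .leaf (.node 1 3 28 1 (58, 55, 55) .leaf (.node 0 1 88 1 (179, 179, 170) .leaf .leaf)))),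
    (.node 0 3 1 1 (4, 1, 1) .leaf (.node 1 3 2 1 (5, 5, 2) .leaf (.node 0 1 2 3 (2, 1, 1) .leaf (.node 1 1 4 3 (3, 3, 2) .leaf (.node 0 3 4 1 (10, 7, 7) .leaf (.node 1 3 8 1 (17, 17, 14) .leaf (.node 0 1 8 3 (6, 5, 5) .leaf (.node 0 3 16 1 (34, 31, 31) .leaf .leaf))))))))⟩

/-- data -/
def ve1_1 : VE :=
  ⟨-171, (-92554320, 371547561, -261157395), ⟨10017370, -15441, 1975697, -11353397, 29361124, -25871298⟩,
    (.node 0 1 22 1 (47, 47, 38) .leaf (.node 0 1 44 1 (91, 91, 82) .leaf (.node 1 3 28 1 (58, 55, 55) .leaf (.node 0 1 88 1 (179, 179, 170) .leaf .leaf)))),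
    (.node 0 3 1 1 (4, 1, 1) .leaf (.node 1 3 2 1 (5, 5, 2) .leaf (.node 0 1 2 3 (2, 1, 1) .leaf (.node 1 1 4 3 (3, 3, 2) .leaf (.node 0 3 4 1 (10, 7, 7) .leaf (.node 1 3 8 1 (17, 17, 14) .leaf (.node 0 1 8 3 (6, 5, 5) .leaf (.node 0 3 16 1 (34, 31, 31) .leaf .leaf))))))))⟩

/-- data -/
def ve2_0 : VE :=
  ⟨-489, (-91642031, 367048319, -257702598), ⟨10037892, -19091, 1871193, -11433140, 28936168, -26692383⟩,
    (.node 0 1 22 1 (47, 47, 38) .leaf (.node 0 1 44 1 (91, 91, 82) .leaf .leaf)),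
    (.node 0 3 1 1 (4, 1, 1) .leaf (.node 1 3 2 1 (5, 5, 2) .leaf (.node 0 1 2 3 (2, 1, 1) .leaf (.node 1 1 4 3 (3, 3, 2) .leaf (.node 0 3 4 1 (10, 7, 7) .leaf (.node 1 3 8 1 (17, 17, 14) .leaf (.node 0 1 8 3 (6, 5, 5) .leaf (.node 0 3 16 1 (34, 31, 31) .leaf .leaf))))))))⟩

/-- data -/
def ve2_1 : VE :=
  ⟨-310, (-92116369, 369363266, -259477418), ⟨10027449, -10614, 1827581, -11226518, 29953913, -27002275⟩,
    (.node 0 1 22 1 (47, 47, 38) .leaf (.node 0 1 44 1 (91, 91, 82) .leaf .leaf)),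
    (.node 0 3 1 1 (4, 1, 1) .leaf (.node 1 3 2 1 (5, 5, 2) .leaf (.node 0 1 2 3 (2, 1, 1) .leaf (.node 1 1 4 3 (3, 3, 2) .leaf (.node 0 3 4 1 (10, 7, 7) .leaf (.node 1 3 8 1 (17, 17, 14) .leaf (.node 0 1 8 3 (6, 5, 5) .leaf .leaf)))))))⟩

/-- data -/
def ve3_0 : VE :=
  ⟨-852, (-90952409, 363696546, -255137078), ⟨10055196, 26588, 2002548, -12264015, 26591313, -26730018⟩,
    (.node 0 1 22 1 (47, 47, 38) .leaf (.node 0 1 44 1 (91, 91, 82) .leaf .leaf)),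
    (.node 0 3 1 1 (4, 1, 1) .leaf (.node 1 3 2 1 (5, 5, 2) .leaf (.node 0 1 2 3 (2, 1, 1) .leaf (.node 1 1 4 3 (3, 3, 2) .leaf (.node 0 3 4 1 (10, 7, 7) .leaf (.node 1 3 8 1 (17, 17, 14) .leaf (.node 0 1 8 3 (6, 5, 5) .leaf .leaf)))))))⟩

/-- data -/
def ve3_1 : VE :=
  ⟨-599, (-91564432, 366650459, -257395020), ⟨10039506, -33469, 2011530, -11506106, 27536082, -26114474⟩,
    (.node 0 1 22 1 (47, 47, 38) .leaf .leaf),
    (.node 0 3 1 1 (4, 1, 1) .leaf (.node 1 3 2 1 (5, 5, 2) .leaf (.node 0 1 2 3 (2, 1, 1) .leaf (.node 1 1 4 3 (3, 3, 2) .leaf (.node 0 3 4 1 (10, 7, 7) .leaf (.node 1 3 8 1 (17, 17, 14) .leaf (.node 0 1 8 3 (6, 5, 5) .leaf .leaf)))))))⟩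

/-- data -/
def ve4_0 : VE :=
  ⟨-1759, (-90074034, 359372185, -251813848), ⟨10083505, 8071, 1849850, -12296869, 26141145, -27099487⟩,
    (.node 0 1 22 1 (47, 47, 38) .leaf .leaf),
    (.node 0 3 1 1 (4, 1, 1) .leaf (.node 1 3 2 1 (5, 5, 2) .leaf (.node 0 1 2 3 (2, 1, 1) .leaf (.node 1 1 4 3 (3, 3, 2) .leaf (.node 0 3 4 1 (10, 7, 7) .leaf (.node 1 3 8 1 (17, 17, 14) .leaf (.node 0 1 8 3 (6, 5, 5) .leaf .leaf)))))))⟩

/-- data -/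
def ve4_1 : VE :=
  ⟨-1210, (-90865335, 363128008, -254676914), ⟨10062209, -21248, 2013537, -11945984, 25938995, -26070738⟩,
    (.node 0 1 22 1 (47, 47, 38) .leaf .leaf),
    (.node 0 3 1 1 (4, 1, 1) .leaf (.node 1 3 2 1 (5, 5, 2) .leaf (.node 0 1 2 3 (2, 1, 1) .leaf (.node 1 1 4 3 (3, 3, 2) .leaf (.node 0 3 4 1 (10, 7, 7) .leaf (.node 1 3 8 1 (17, 17, 14) .leaf (.node 0 1 8 3 (6, 5, 5) .leaf .leaf)))))))⟩

/-- data -/
def ve5_0 : VE :=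
  ⟨-3682, (-88915338, 353829391, -247576260), ⟨10118185, -150147, 1471341, -10594594, 27416423, -27941117⟩,
    (.node 0 1 22 1 (47, 47, 38) .leaf .leaf),
    (.node 0 3 1 1 (4, 1, 1) .leaf (.node 1 3 2 1 (5, 5, 2) .leaf (.node 0 1 2 3 (2, 1, 1) .leaf (.node 1 1 4 3 (3, 3, 2) .leaf (.node 0 3 4 1 (10, 7, 7) .leaf (.node 1 3 8 1 (17, 17, 14) .leaf (.node 0 1 8 3 (6, 5, 5) .leaf .leaf)))))))⟩

/-- data -/
def ve5_1 : VE :=
  ⟨-2594, (-89930826, 358583956, -251190899), ⟨10096986, -73734, 1771604, -11516352, 25831446, -26728766⟩,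
    .leaf,
    (.node 0 3 1 1 (4, 1, 1) .leaf (.node 1 3 2 1 (5, 5, 2) .leaf (.node 0 1 2 3 (2, 1, 1) .leaf (.node 1 1 4 3 (3, 3, 2) .leaf (.node 0 3 4 1 (10, 7, 7) .leaf (.node 1 3 8 1 (17, 17, 14) .leaf (.node 0 1 8 3 (6, 5, 5) .leaf .leaf)))))))⟩

/-- data -/
def ve6_0 : VE :=
  ⟨-5957, (-87466679, 346783183, -242185700), ⟨10132943, -304897, 1765795, -9053577, 24290828, -29138071⟩,
    (.node 0 1 22 1 (47, 47, 38) .leaf .leaf),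
    (.node 0 3 1 1 (4, 1, 1) .leaf (.node 1 3 2 1 (5, 5, 2) .leaf (.node 0 1 2 3 (2, 1, 1) .leaf (.node 1 1 4 3 (3, 3, 2) .leaf (.node 0 3 4 1 (10, 7, 7) .leaf (.node 1 3 8 1 (17, 17, 14) .leaf (.node 0 1 8 3 (6, 5, 5) .leaf .leaf)))))))⟩

/-- data -/
def ve6_1 : VE :=
  ⟨-5173, (-88729080, 352775782, -246741239), ⟨10129278, -234098, 1644346, -9924529, 25288531, -27574088⟩,
    .leaf,
    (.node 0 3 1 1 (4, 1, 1) .leaf (.node 1 3 2 1 (5, 5, 2) .leaf (.node 0 1 2 3 (2, 1, 1) .leaf (.node 1 1 4 3 (3, 3, 2) .leaf (.node 0 3 4 1 (10, 7, 7) .leaf (.node 1 3 8 1 (17, 17, 14) .leaf (.node 0 1 8 3 (6, 5, 5) .leaf .leaf)))))))⟩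

/-- data -/
def ve7_0 : VE :=
  ⟨-9889, (-85593004, 337570553, -235122386), ⟨10148202, -685430, 1860336, -4475541, 22443050, -30604838⟩,
    .leaf,
    (.node 0 3 1 1 (4, 1, 1) .leaf (.node 1 3 2 1 (5, 5, 2) .leaf (.node 0 1 2 3 (2, 1, 1) .leaf (.node 1 1 4 3 (3, 3, 2) .leaf (.node 0 3 4 1 (10, 7, 7) .leaf (.node 1 3 8 1 (17, 17, 14) .leaf (.node 0 1 8 3 (6, 5, 5) .leaf .leaf)))))))⟩

/-- data -/
def ve7_1 : VE :=
  ⟨-8668, (-87170706, 345162155, -240905815), ⟨10143558, -423563, 2177819, -7896329, 20299453, -29490975⟩,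
    .leaf,
    (.node 0 3 1 1 (4, 1, 1) .leaf (.node 1 3 2 1 (5, 5, 2) .leaf (.node 0 1 2 3 (2, 1, 1) .leaf (.node 1 1 4 3 (3, 3, 2) .leaf (.node 0 3 4 1 (10, 7, 7) .leaf .leaf)))))⟩

/-- data -/
def ve8_0 : VE :=
  ⟨-18391, (-83178031, 326073849, -226358184), ⟨10182793, -1072554, 1860036, -1217021, 21956867, -26535742⟩,
    .leaf,
    (.node 0 3 1 1 (4, 1, 1) .leaf (.node 1 3 2 1 (5, 5, 2) .leaf (.node 0 1 2 3 (2, 1, 1) .leaf (.node 1 1 4 3 (3, 3, 2) .leaf (.node 0 3 4 1 (10, 7, 7) .leaf .leaf)))))⟩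

/-- data -/
def ve8_1 : VE :=
  ⟨-16023, (-85154020, 335397045, -233427524), ⟨10172817, -812612, 2304637, -3834029, 18325734, -28523205⟩,
    .leaf,
    (.node 0 3 1 1 (4, 1, 1) .leaf (.node 1 3 2 1 (5, 5, 2) .leaf (.node 0 1 2 3 (2, 1, 1) .leaf (.node 1 1 4 3 (3, 3, 2) .leaf (.node 0 3 4 1 (10, 7, 7) .leaf .leaf)))))⟩

/-- data -/
def ve9_0 : VE :=
  ⟨-36633, (-80140884, 311555754, -215269347), ⟨10256890, -1475927, 1614050, 1514377, 23898848, -20005971⟩,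
    .leaf,
    (.node 0 3 1 1 (4, 1, 1) .leaf (.node 1 3 2 1 (5, 5, 2) .leaf (.node 0 1 2 3 (2, 1, 1) .leaf (.node 1 1 4 3 (3, 3, 2) .leaf (.node 0 3 4 1 (10, 7, 7) .leaf .leaf)))))⟩

/-- data -/
def ve9_1 : VE :=
  ⟨-32431, (-82672686, 322967282, -223830562), ⟨10238810, -1213198, 2308778, -750994, 17665988, -22699041⟩,
    .leaf,
    (.node 0 3 1 1 (4, 1, 1) .leaf (.node 1 3 2 1 (5, 5, 2) .leaf (.node 0 1 2 3 (2, 1, 1) .leaf (.node 1 1 4 3 (3, 3, 2) .leaf (.node 0 3 4 1 (10, 7, 7) .leaf .leaf)))))⟩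

/-- data -/
def ve10_0 : VE :=
  ⟨-73206, (-76288256, 294768944, -202689983), ⟨10405015, -1909978, 829161, 4963174, 29219553, -12769973⟩,
    (.node 0 1 22 1 (47, 47, 38) .leaf .leaf),
    (.node 0 3 1 1 (4, 1, 1) .leaf (.node 1 3 2 1 (5, 5, 2) .leaf (.node 0 1 2 3 (2, 1, 1) .leaf (.node 1 1 4 3 (3, 3, 2) .leaf (.node 0 3 4 1 (10, 7, 7) .leaf .leaf)))))⟩

/-- data -/
def ve10_1 : VE :=
  ⟨-84008, (-79573518, 308127844, -212385719), ⟨10451004, -1729924, 1588811, 3331768, 21896775, -13000154⟩,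
    .leaf,
    (.node 0 3 1 1 (4, 1, 1) .leaf (.node 1 3 2 1 (5, 5, 2) .leaf (.node 0 1 2 3 (2, 1, 1) .leaf (.node 1 1 4 3 (3, 3, 2) .leaf (.node 0 3 4 1 (10, 7, 7) .leaf .leaf)))))⟩

/-- data -/
def ve11_0 : VE :=
  ⟨-139057, (-71722960, 273039188, -186118367), ⟨10669591, -2652393, -862741, 12885035, 39033457, -1958189⟩,
    (.node 0 1 22 1 (47, 47, 38) .leaf .leaf),
    (.node 0 3 1 1 (4, 1, 1) .leaf (.node 1 3 2 1 (5, 5, 2) .leaf (.node 0 1 2 3 (2, 1, 1) .leaf (.node 1 1 4 3 (3, 3, 2) .leaf .leaf))))⟩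

/-- data -/
def ve11_1 : VE :=
  ⟨-168017, (-75269568, 288746458, -197700229), ⟨10791983, -2630613, -684934, 13055672, 35872934, -823993⟩,
    (.node 0 1 22 1 (47, 47, 38) .leaf .leaf),
    (.node 0 3 1 1 (4, 1, 1) .leaf (.node 1 3 2 1 (5, 5, 2) .leaf (.node 0 1 2 3 (2, 1, 1) .leaf (.node 1 1 4 3 (3, 3, 2) .leaf (.node 0 3 4 1 (10, 7, 7) .leaf .leaf)))))⟩

/-- data -/
def ve12_0 : VE :=
  ⟨-232341, (-65862801, 245870928, -165583352), ⟨11010967, -3710028, -2784502, 24250880, 49464117, 9880782⟩,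
    (.node 0 1 22 1 (47, 47, 38) .leaf .leaf),
    (.node 0 3 1 1 (4, 1, 1) .leaf (.node 1 3 2 1 (5, 5, 2) .leaf (.node 0 1 2 3 (2, 1, 1) .leaf .leaf)))⟩

/-- data -/
def ve12_1 : VE :=
  ⟨-268448, (-70169821, 265591376, -180229095), ⟨11168713, -3636005, -2885402, 24405701, 48114370, 11152522⟩,
    (.node 0 1 22 1 (47, 47, 38) .leaf .leaf),
    (.node 0 3 1 1 (4, 1, 1) .leaf (.node 1 3 2 1 (5, 5, 2) .leaf (.node 0 1 2 3 (2, 1, 1) .leaf .leaf)))⟩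

/-- data -/
def ve13_0 : VE :=
  ⟨-452232, (-59434692, 218791151, -145445595), ⟨11537038, -4774204, -2613806, 39646168, 53616568, 27435829⟩,
    (.node 0 1 22 1 (47, 47, 38) .leaf .leaf),
    (.node 0 3 1 1 (4, 1, 1) .leaf (.node 1 3 2 1 (5, 5, 2) .leaf .leaf))⟩

/-- data -/
def ve13_1 : VE :=
  ⟨-353331, (-64501583, 238840531, -160011722), ⟨11348587, -3629600, -2457656, 25820299, 46325250, 14666287⟩,
    (.node 0 1 22 1 (47, 47, 38) .leaf .leaf),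
    (.node 0 3 1 1 (4, 1, 1) .leaf (.node 1 3 2 1 (5, 5, 2) .leaf .leaf))⟩

/-- data -/
def ve14_0 : VE :=
  ⟨-960191, (-50817707, 182219054, -118150804), ⟨12355517, -6496158, 838344, 75367706, 62262980, 63455064⟩,
    (.node 0 1 22 1 (47, 47, 38) .leaf .leaf),
    (.node 0 3 1 1 (4, 1, 1) .leaf (.node 1 3 2 1 (5, 5, 2) .leaf (.node 0 1 2 3 (2, 1, 1) .leaf .leaf)))⟩

/-- data -/
def ve14_1 : VE :=
  ⟨-471288, (-56716280, 203950949, -133988136), ⟨11460372, -4170892, -1348723, 34627593, 46938838, 26024846⟩,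
    (.node 0 1 22 1 (47, 47, 38) .leaf .leaf),
    (.node 0 3 1 1 (4, 1, 1) .leaf (.node 1 3 2 1 (5, 5, 2) .leaf .leaf))⟩

/-- data -/
def ve15_0 : VE :=
  ⟨-2366540, (-41818830, 150511777, -95033223), ⟨14405528, -6070339, 10586030, 143633226, 99758476, 97087587⟩,
    .leaf,
    (.node 0 3 1 1 (4, 1, 1) .leaf (.node 1 3 2 1 (5, 5, 2) .leaf (.node 0 1 2 3 (2, 1, 1) .leaf .leaf)))⟩

/-- data -/
def ve15_1 : VE :=
  ⟨-1093927, (-47696849, 166855538, -106437134), ⟨12428306, -7447727, 1980398, 89500000, 68190069, 74391361⟩,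
    (.node 0 1 22 1 (47, 47, 38) .leaf .leaf),
    (.node 0 3 1 1 (4, 1, 1) .leaf .leaf)⟩

/-- data -/
def ve16_0 : VE :=
  ⟨-5615806, (-33715794, 111214830, -63674325), ⟨18558986, 5739112, 40273087, 211630751, 124056951, 114006311⟩,
    .leaf,
    (.node 0 3 1 1 (4, 1, 1) .leaf (.node 1 3 2 1 (5, 5, 2) .leaf (.node 0 1 2 3 (2, 1, 1) .leaf .leaf)))⟩

/-- data -/
def ve16_1 : VE :=
  ⟨-3508494, (-38482364, 124358412, -73146534), ⟨15769122, -4980982, 19411329, 195769424, 135682307, 105860520⟩,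
    .leaf,
    (.node 0 3 1 1 (4, 1, 1) .leaf (.node 1 3 2 1 (5, 5, 2) .leaf (.node 0 1 2 3 (2, 1, 1) .leaf .leaf)))⟩

/-- data -/
def ve17_0 : VE :=
  ⟨-14994079, (-20538536, 86698614, -46788918), ⟨29037484, 45486432, 144709868, 345941874, 103108655, 141355320⟩,
    .leaf,
    .leaf⟩

/-- data -/
def ve17_1 : VE :=
  ⟨-10063797, (-28348555, 87832678, -44409365), ⟨23643519, 26256843, 91286788, 262392982, 89193047, 147707343⟩,
    .leaf,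
    (.node 0 3 1 1 (4, 1, 1) .leaf .leaf)⟩

/-- data -/
def ve18_0 : VE :=
  ⟨-14997178, (-15351265, 61365105, -29922637), ⟨27929026, 48414603, 145004260, 316735302, 118003177, 53941961⟩,
    .leaf,
    .leaf⟩

/-- data -/
def ve18_1 : VE :=
  ⟨-14997234, (-12958554, 61672411, -31196252), ⟨28275237, 47394850, 144629475, 323246296, 111466428, 80575886⟩,
    .leaf,
    .leaf⟩

/-- the vertices -/
def verts : List Vx :=
  [⟨20, ve0_0, ve0_1⟩,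
   ⟨26, ve1_0, ve1_1⟩,
   ⟨34, ve2_0, ve2_1⟩,
   ⟨44, ve3_0, ve3_1⟩,
   ⟨57, ve4_0, ve4_1⟩,
   ⟨74, ve5_0, ve5_1⟩,
   ⟨96, ve6_0, ve6_1⟩,
   ⟨125, ve7_0, ve7_1⟩,
   ⟨163, ve8_0, ve8_1⟩,
   ⟨212, ve9_0, ve9_1⟩,
   ⟨275, ve10_0, ve10_1⟩,
   ⟨360, ve11_0, ve11_1⟩,
   ⟨470, ve12_0, ve12_1⟩,
   ⟨600, ve13_0, ve13_1⟩,
   ⟨790, ve14_0, ve14_1⟩,
   ⟨1020, ve15_0, ve15_1⟩,
   ⟨1330, ve16_0, ve16_1⟩,
   ⟨1700, ve17_0, ve17_1⟩,
   ⟨2020, ve18_0, ve18_1⟩]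

/-- data -/
def bR1 : ℤ × ℤ × ℤ := (-1000, 0, 737)

/-- data -/
def tR1 : Tri := (.node 0 1 22 1 (47, 47, 38) .leaf .leaf)

/-- data -/
def bR2 : ℤ × ℤ × ℤ := (10000, 0, -7605)

/-- data -/
def tR2 : Tri := .leaf

/-- data -/
def bR3 : ℤ × ℤ × ℤ := (0, -1000, 901)

/-- data -/
def tR3 : Tri := .leaf

/-- data -/
def bR4 : ℤ × ℤ × ℤ := (0, 1000, -923)

/-- data -/
def tR4 : Tri := (.node 0 1 22 1 (47, 47, 38) (.node 2 14 33 1 (680, 647, 521) .leaf (.node 2 1 66 1 (1340, 1241, 1115) .leaf .leaf)) .leaf)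

/-- data -/
def bR5 : ℤ × ℤ × ℤ := (0, 0, 10000000)

/-- data -/
def nR5 : Cf := ⟨20038691, -1474, -2407, 223475516, 803968471, -1111318825⟩

/-- data -/
def tR5 : Tri := .leaf

/-- data -/
def uR5 : Tri := .leaf

/-- data -/
def bR6 : ℤ × ℤ × ℤ := (0, 0, -115)

/-- data -/
def nR6 : Cf := ⟨-100, 0, 0, 0, 0, 0⟩

/-- data -/
def tR6 : Tri := .leaf

end Vale.Agent.P154.GD
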